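import Vale.Agent.P015.Strip

/-!
Windows free of Gaussian primes on straight lines of arbitrary real slope, and the reduction of
finite unions of lines and polynomial curves to a single group.
-/

open Polynomial

namespace Vale.Agent.P015

/-- A congruence class of blocks without Gaussian primes, centred along a lattice direction. -/
theorem exists_block (q r : ℤ) (hq : q ≠ 0) (L H : ℕ) : ∃ (M : ℕ) (t₀ : ℤ), 0 < M ∧
    ∀ x y : ℤ, (M : ℤ) ∣ x - q * t₀ → (M : ℤ) ∣ y - r * t₀ → ∀ z : GaussianInt,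
      |z.re - x| ≤ L → |z.im - y| ≤ H → (M : ℤ) < |z.re| → ¬Prime z := by
  let N : ℤ × ℤ → ℤ[X] := fun o => (C q * X + C o.1) ^ 2 + (C r * X + C o.2) ^ 2
  have hN : ∀ o, (N o).natDegree ≠ 0 := by
    intro o h
    obtain ⟨c, hc⟩ := natDegree_eq_zero.1 h
    have h1 := congrArg (eval (|c| + |o.1| + 1)) hc
    have h2 := congrArg (eval (-(|c| + |o.1| + 1))) hc
    simp [N] at h1 h2
    have hq1 : 1 ≤ q ^ 2 := by
      have := pow_pos (abs_pos.2 hq) 2
      rw [sq_abs] at this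
      omega
    nlinarith [le_abs_self c, abs_nonneg c, abs_nonneg o.1, sq_nonneg o.1, sq_nonneg o.2,
      sq_nonneg r, mul_le_mul_of_nonneg_right hq1 (sq_nonneg (|c| + |o.1| + 1))]
  obtain ⟨m, t₀, hm, h⟩ := exists_class
    (Finset.Icc (-(L : ℤ)) L ×ˢ Finset.Icc (-(H : ℤ)) H) N fun o _ => hN o
  refine ⟨m.factorial, t₀, m.factorial_pos, fun x y hx hy z hzx hzy hzm hz => ?_⟩
  obtain ⟨p, hp, hpm, hpd⟩ := h (z.re - x, z.im - y) (by
    simp only [Finset.mem_product, Finset.mem_Icc]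
    exact ⟨abs_le.1 hzx, abs_le.1 hzy⟩) t₀ (by simp)
  have hpM : (p : ℤ) ∣ (m.factorial : ℤ) :=
    Int.natCast_dvd_natCast.2 (Nat.dvd_factorial hp.pos hpm)
  obtain ⟨a, ha⟩ := hpM.trans hx
  obtain ⟨b, hb⟩ := hpM.trans hy
  obtain ⟨e, he⟩ := hpd
  simp [N] at he
  have hd : (p : ℤ) ∣ z.norm := by
    refine ⟨e + (q * t₀ + (z.re - x) + z.re) * a + (r * t₀ + (z.im - y) + z.im) * b, ?_⟩
    rw [Zsqrtd.norm_def]
    linear_combination he + (q * t₀ + (z.re - x) + z.re) * ha +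
      (r * t₀ + (z.im - y) + z.im) * hb
  have h1 := norm_le_sq hz hp hd
  rw [Zsqrtd.norm_def] at h1
  have h2 : (p : ℤ) ≤ m.factorial := by exact_mod_cast hpm.trans m.self_le_factorial
  nlinarith [sq_abs z.re, mul_self_nonneg z.im, Int.natCast_nonneg p, abs_nonneg z.re]

/-- Multiples of an irrational number come close to any residue class arbitrarily late. -/
theorem exists_near {θ : ℝ} (hθ : Irrational θ) (a : ℝ) {ε : ℝ} (hε : 0 < ε) (B : ℤ) :
    ∃ k l : ℤ, B ≤ k ∧ |k * θ + a - l| ≤ ε := by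
  obtain ⟨n, hn⟩ := exists_nat_one_div_lt hε
  obtain ⟨j, k, hk, -, hjk⟩ := Real.exists_int_int_abs_mul_sub_le θ n.succ_pos
  have hd : (k : ℝ) * θ - j ≠ 0 :=
    sub_ne_zero.2 ((hθ.intCast_mul hk.ne').ne_int j)
  set d := (k : ℝ) * θ - j with hd'
  have hde : |d| ≤ ε := by
    refine hjk.trans (le_trans ?_ hn.le)
    push_cast
    exact one_div_le_one_div_of_le (by positivity) (by linarith)
  obtain ⟨l, hl⟩ : ∃ l : ℤ, 0 ≤ ((l : ℝ) - a - B * θ) / d := by
    rcases lt_or_gt_of_ne hd with h | h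
    · exact ⟨⌊a + B * θ⌋, div_nonneg_of_nonpos (by linarith [Int.floor_le (a + B * θ)]) h.le⟩
    · exact ⟨⌈a + B * θ⌉, div_nonneg (by linarith [Int.le_ceil (a + B * θ)]) h.le⟩
  set v := ((l : ℝ) - a - B * θ) / d with hv
  have hvd : v * d = (l : ℝ) - a - B * θ := div_mul_cancel₀ _ hd
  refine ⟨B + ⌊v⌋ * k, l + ⌊v⌋ * j, le_add_of_nonneg_right
    (mul_nonneg (Int.floor_nonneg.2 hl) hk.le), le_trans ?_ hde⟩
  have he : ((B + ⌊v⌋ * k : ℤ) : ℝ) * θ + a - ((l + ⌊v⌋ * j : ℤ) : ℝ) =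
      ((⌊v⌋ : ℝ) - v) * d := by
    rw [sub_mul, hvd, hd']
    push_cast
    ring
  rw [he, abs_mul]
  refine mul_le_of_le_one_left (abs_nonneg _) (abs_le.2 ⟨?_, ?_⟩) <;>
    linarith [Int.floor_le v, Int.lt_floor_add_one v]

/-- No path near a line is unbounded to the right. -/
theorem no_line_above (θ c K : ℝ) (L : ℕ) (z : ℕ → GaussianInt) (hp : ∀ n, Prime (z n))
    (hs : ∀ n, |(z (n + 1)).re - (z n).re| ≤ L)
    (hc : ∀ n, |((z n).im : ℝ) - θ * (z n).re - c| ≤ K)
    (hu : ∀ B : ℤ, ∃ n, B ≤ (z n).re) : False := by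
  set H : ℕ := ⌈K + |θ| * L + (|c| + 1)⌉₊ with hH
  have key : ∀ (M : ℕ) (x₀ y₀ : ℤ),
      (∀ x y : ℤ, (M : ℤ) ∣ x - x₀ → (M : ℤ) ∣ y - y₀ → ∀ w : GaussianInt,
        |w.re - x| ≤ L → |w.im - y| ≤ H → (M : ℤ) < |w.re| → ¬Prime w) →
      (∀ B : ℤ, ∃ x y : ℤ, B < x ∧ (M : ℤ) ∣ x - x₀ ∧ (M : ℤ) ∣ y - y₀ ∧
        |θ * x + c - y| ≤ |c| + 1) → False := by
    intro M x₀ y₀ hw hcen
    obtain ⟨x, y, hx, hdx, hdy, hxy⟩ := hcen (|(z 0).re| + M)
    have := le_abs_self (z 0).re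
    have := abs_nonneg (z 0).re
    obtain ⟨i, hi, hi'⟩ := visit_above (a := fun i => (z i).re) hs (x := x) (by omega) (hu x)
    refine hw x y hdx hdy (z i) hi ?_ (by rw [abs_of_nonneg (by omega)]; omega) (hp i)
    have hi2 : |((z i).re : ℝ) - x| ≤ L := by exact_mod_cast hi
    have : |((z i).im : ℝ) - y| ≤ (H : ℝ) :=
      calc |((z i).im : ℝ) - y|
          = |((z i).im - θ * (z i).re - c) + (θ * (((z i).re : ℝ) - x) + (θ * x + c - y))| := by
            congr 1
            ring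
        _ ≤ |((z i).im : ℝ) - θ * (z i).re - c| +
            (|θ * (((z i).re : ℝ) - x)| + |θ * x + c - y|) :=
            (abs_add_le _ _).trans (add_le_add le_rfl (abs_add_le _ _))
        _ ≤ K + (|θ| * L + (|c| + 1)) := by
            rw [abs_mul]
            gcongr
            exact hc i
        _ ≤ H := le_trans (le_of_eq (by ring)) (Nat.le_ceil _)
    exact_mod_cast this
  by_cases hθ : Irrational θ
  · obtain ⟨M, t, hM, hw⟩ := exists_block 1 0 one_ne_zero L H
    refine key M t 0 (by simpa using hw) fun B => ?_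
    have hM' : (0 : ℝ) < M := by exact_mod_cast hM
    obtain ⟨k, l, hk, hkl⟩ := exists_near hθ ((θ * t + c) / M) (one_div_pos.2 hM') (|B - t| + 1)
    refine ⟨t + k * M, l * M, ?_, ⟨k, by ring⟩, ⟨l, by ring⟩, ?_⟩
    · have := le_abs_self (B - t)
      have := abs_nonneg (B - t)
      have : k ≤ k * M := le_mul_of_one_le_right (by omega) (by exact_mod_cast hM)
      omega
    · push_cast
      have e : θ * ((t : ℝ) + k * M) + c - l * M = M * (k * θ + (θ * t + c) / M - l) := by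
        field_simp
        ring
      rw [e, abs_mul, abs_of_pos hM']
      calc (M : ℝ) * |k * θ + (θ * t + c) / M - l| ≤ M * (1 / M) :=
            mul_le_mul_of_nonneg_left hkl hM'.le
        _ = 1 := mul_one_div_cancel hM'.ne'
        _ ≤ |c| + 1 := le_add_of_nonneg_left (abs_nonneg c)
  · obtain ⟨s, rfl⟩ := of_not_not (show ¬¬θ ∈ Set.range ((↑) : ℚ → ℝ) from hθ)
    obtain ⟨M, t, hM, hw⟩ := exists_block s.den s.num (by exact_mod_cast s.den_ne_zero) L H
    refine key M _ _ hw fun B => ?_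
    set k : ℤ := |B| + |t| + 1 with hk
    refine ⟨s.den * (t + k * M), s.num * (t + k * M), ?_, ⟨s.den * k, by ring⟩,
      ⟨s.num * k, by ring⟩, ?_⟩
    · have := le_abs_self B
      have := neg_abs_le t
      have := abs_nonneg B
      have := abs_nonneg t
      have : k ≤ k * M := le_mul_of_one_le_right (by omega) (by exact_mod_cast hM)
      have : t + k * M ≤ s.den * (t + k * M) :=
        le_mul_of_one_le_left (by omega) (by exact_mod_cast s.den_pos)
      omega
    · have h : (s : ℝ) * s.den = s.num := by exact_mod_cast Rat.mul_den_eq_num s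
      push_cast
      rw [show (s : ℝ) * (s.den * ((t : ℝ) + k * M)) + c - s.num * (t + k * M) = c by
        linear_combination ((t : ℝ) + k * M) * h]
      exact le_add_of_nonneg_right zero_le_one

/-- No infinite path of Gaussian primes stays near one straight line. -/
theorem no_line (θ c K : ℝ) (L : ℕ) (z : ℕ → GaussianInt) (hz : Function.Injective z)
    (hp : ∀ n, Prime (z n)) (hs : ∀ n, |(z (n + 1)).re - (z n).re| ≤ L)
    (hc : ∀ n, |((z n).im : ℝ) - θ * (z n).re - c| ≤ K) : False := by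
  by_cases hu : ∀ B : ℤ, ∃ n, B ≤ (z n).re
  · exact no_line_above θ c K L z hp hs hc hu
  by_cases hd : ∀ B : ℤ, ∃ n, (z n).re ≤ B
  · refine no_line_above θ (-c) K L (fun n => -z n) (fun n => (hp n).neg) (fun n => ?_)
      (fun n => ?_) fun B => ?_
    · simpa [abs_sub_comm, neg_add_eq_sub] using hs n
    · have h := hc n
      simp only [Zsqrtd.re_neg, Zsqrtd.im_neg, Int.cast_neg]
      rw [← abs_neg]
      convert h using 2
      ring
    · obtain ⟨n, hn⟩ := hd (-B)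
      exact ⟨n, by simp only [Zsqrtd.re_neg]; omega⟩
  push Not at hu hd
  obtain ⟨B₁, h1⟩ := hu
  obtain ⟨B₂, h2⟩ := hd
  refine Set.infinite_range_of_injective hz (Set.Finite.subset
    (Finset.finite_toSet ((Finset.Icc B₂ B₁).biUnion fun a => (Finset.Icc ⌊θ * a + c - K⌋
      ⌈θ * a + c + K⌉).image fun b => (⟨a, b⟩ : GaussianInt))) ?_)
  rintro - ⟨n, rfl⟩
  simp only [Finset.coe_biUnion, Set.mem_iUnion, Finset.mem_coe, Finset.coe_image, Set.mem_image,
    Finset.mem_Icc]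
  refine ⟨(z n).re, ⟨(h2 n).le, (h1 n).le⟩, (z n).im, ⟨?_, ?_⟩, rfl⟩
  · have := abs_le.1 (hc n)
    exact Int.floor_le_iff.2 (by linarith [Int.floor_le (θ * (z n).re + c - K)])
  · have := abs_le.1 (hc n)
    exact Int.le_ceil_iff.2 (by linarith)

/-- The mirror image in the diagonal. -/
def swap (z : GaussianInt) : GaussianInt := ⟨z.im, z.re⟩

theorem prime_swap {z : GaussianInt} (h : Prime z) : Prime (swap z) := by
  have e : swap z = star z * ⟨0, 1⟩ := by
    ext <;> simp [swap]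
  have hu : IsUnit (⟨0, 1⟩ : GaussianInt) := by
    rw [Zsqrtd.isUnit_iff_norm_isUnit]
    simp [Zsqrtd.norm_def]
  rw [e]
  refine (associated_mul_unit_right (star z) _ hu).prime ?_
  exact (MulEquiv.prime_iff (starRingAut : RingAut GaussianInt).toMulEquiv).2 h

/-- Distance to a line, not normalised. -/
def lineVal (l : ℝ × ℝ × ℝ) (z : GaussianInt) : ℝ := l.1 * z.re + l.2.1 * z.im - l.2.2

theorem no_one_line (a b c K : ℝ) (hab : a ≠ 0 ∨ b ≠ 0) (L : ℕ) (z : ℕ → GaussianInt)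
    (hz : Function.Injective z) (hp : ∀ n, Prime (z n))
    (hs : ∀ n, |(z (n + 1)).re - (z n).re| ≤ L) (hs' : ∀ n, |(z (n + 1)).im - (z n).im| ≤ L)
    (hc : ∀ n, |lineVal (a, b, c) (z n)| ≤ K) : False := by
  rcases eq_or_ne b 0 with rfl | hb
  · have ha : a ≠ 0 := hab.resolve_right (fun h => h rfl)
    refine no_line 0 (c / a) (K / |a|) L (fun n => swap (z n))
      (fun x y h => hz (by simpa [swap, Zsqrtd.ext_iff, and_comm] using h))
      (fun n => prime_swap (hp n)) hs' fun n => ?_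
    have h := hc n
    rw [le_div_iff₀ (abs_pos.2 ha), ← abs_mul]
    refine le_trans (le_of_eq (congrArg abs ?_)) h
    change ((z n).re - 0 * ((z n).im : ℝ) - c / a) * a = a * (z n).re + 0 * (z n).im - c
    field_simp
    ring
  · refine no_line (-a / b) (c / b) (K / |b|) L z hz hp hs fun n => ?_
    have h := hc n
    rw [le_div_iff₀ (abs_pos.2 hb), ← abs_mul]
    refine le_trans (le_of_eq (congrArg abs ?_)) h
    change (((z n).im : ℝ) - -a / b * (z n).re - c / b) * b = a * (z n).re + b * (z n).im - c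
    field_simp
    ring

/-- Finitely many Gaussian integers with small values of two functions of the coordinates. -/
theorem finite_of_bounded {P : GaussianInt → Prop} (B : ℤ) (g : ℤ → ℝ) (E : ℝ)
    (h : ∀ z, P z → |z.re| ≤ B ∧ |(z.im : ℝ) - g z.re| ≤ E) : {z | P z}.Finite := by
  refine Set.Finite.subset (Finset.finite_toSet ((Finset.Icc (-B) B).biUnion fun a =>
    (Finset.Icc ⌊g a - E⌋ ⌈g a + E⌉).image fun b => (⟨a, b⟩ : GaussianInt))) fun z hz => ?_
  obtain ⟨h1, h2⟩ := h z hz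
  simp only [Finset.coe_biUnion, Set.mem_iUnion, Finset.mem_coe, Finset.coe_image, Set.mem_image,
    Finset.mem_Icc]
  refine ⟨z.re, abs_le.1 h1, z.im, ⟨?_, ?_⟩, rfl⟩
  · have := abs_le.1 h2
    exact Int.floor_le_iff.2 (by linarith)
  · have := abs_le.1 h2
    exact Int.le_ceil_iff.2 (by linarith)

theorem finite_two_lines (l l' : ℝ × ℝ × ℝ) (E : ℝ) (h : l.1 * l'.2.1 ≠ l.2.1 * l'.1) :
    {z : GaussianInt | |lineVal l z| ≤ E ∧ |lineVal l' z| ≤ E}.Finite := by
  obtain ⟨a, b, c⟩ := l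
  obtain ⟨a', b', c'⟩ := l'
  simp only at h
  have hd : a * b' - b * a' ≠ 0 := sub_ne_zero.2 h
  refine finite_of_bounded ⌈((E + |c|) * |b'| + (E + |c'|) * |b|) / |a * b' - b * a'|⌉
    (fun _ => 0) (((E + |c|) * |a'| + (E + |c'|) * |a|) / |a * b' - b * a'|) fun z ⟨h1, h2⟩ => ?_
  simp only [lineVal] at h1 h2
  have u1 : |a * z.re + b * z.im| ≤ E + |c| :=
    calc |a * z.re + b * z.im| = |(a * z.re + b * z.im - c) + c| := by rw [sub_add_cancel]
      _ ≤ _ := (abs_add_le _ _).trans (add_le_add h1 le_rfl)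
  have u2 : |a' * z.re + b' * z.im| ≤ E + |c'| :=
    calc |a' * z.re + b' * z.im| = |(a' * z.re + b' * z.im - c') + c'| := by rw [sub_add_cancel]
      _ ≤ _ := (abs_add_le _ _).trans (add_le_add h2 le_rfl)
  refine ⟨?_, ?_⟩
  · have : |(z.re : ℝ)| ≤ ((E + |c|) * |b'| + (E + |c'|) * |b|) / |a * b' - b * a'| := by
      rw [le_div_iff₀ (abs_pos.2 hd), ← abs_mul,
        show (z.re : ℝ) * (a * b' - b * a') =
          (a * z.re + b * z.im) * b' - (a' * z.re + b' * z.im) * b by ring]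
      refine (abs_sub _ _).trans ?_
      rw [abs_mul, abs_mul]
      gcongr
    exact_mod_cast this.trans (Int.le_ceil _)
  · rw [sub_zero, le_div_iff₀ (abs_pos.2 hd), ← abs_mul,
      show (z.im : ℝ) * (a * b' - b * a') =
        (a' * z.re + b' * z.im) * a - (a * z.re + b * z.im) * a' by ring]
    refine (abs_sub _ _).trans ?_
    rw [abs_mul, abs_mul]
    linarith [mul_le_mul_of_nonneg_right u1 (abs_nonneg a'),
      mul_le_mul_of_nonneg_right u2 (abs_nonneg a)]

theorem finite_line_curve (l : ℝ × ℝ × ℝ) (hl : l.1 ≠ 0 ∨ l.2.1 ≠ 0) (f : ℤ[X])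
    (hf : 2 ≤ f.natDegree) (E : ℝ) :
    {z : GaussianInt | |lineVal l z| ≤ E ∧
      |(z.im : ℝ) - ((f.eval z.re : ℤ) : ℝ)| ≤ E}.Finite := by
  obtain ⟨a, b, c⟩ := l
  simp only at hl
  set P : ℝ[X] := C a * X + C b * f.map (Int.castRingHom ℝ) - C c with hP
  have hdeg : 0 < P.degree := by
    rw [← natDegree_pos_iff_degree_pos]
    rcases eq_or_ne b 0 with rfl | hb
    · have ha : a ≠ 0 := hl.resolve_right fun h => h rfl
      refine Nat.lt_of_lt_of_le one_pos (le_natDegree_of_ne_zero ?_)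
      simp [hP, coeff_C, ha]
    · refine Nat.lt_of_lt_of_le (show 0 < f.natDegree by omega) (le_natDegree_of_ne_zero ?_)
      have h0 : f.natDegree ≠ 0 := by omega
      have h1 : 1 ≠ f.natDegree := by omega
      simp [hP, coeff_C, coeff_X, h0, h1, hb, Polynomial.ne_zero_of_natDegree_gt hf]
  obtain ⟨X₁, hX₁⟩ := Filter.eventually_atTop.1
    ((P.abs_tendsto_atTop hdeg).eventually_gt_atTop (E + |b| * E))
  obtain ⟨X₂, hX₂⟩ := Filter.eventually_atBot.1
    ((P.abs_tendsto_atBot hdeg).eventually_gt_atTop (E + |b| * E))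
  refine finite_of_bounded ⌈|X₁| + |X₂|⌉ (fun x => ((f.eval x : ℤ) : ℝ)) E
    fun z ⟨h1, h2⟩ => ⟨?_, h2⟩
  simp only [lineVal] at h1
  have hP' : |P.eval (z.re : ℝ)| ≤ E + |b| * E := by
    have e : P.eval (z.re : ℝ) =
        (a * z.re + b * z.im - c) + b * (((f.eval z.re : ℤ) : ℝ) - z.im) := by
      simp only [hP, eval_sub, eval_add, eval_mul, eval_C, eval_X, eval_intCast_map,
        eq_intCast, Int.cast_id]
      ring
    rw [e]
    refine (abs_add_le _ _).trans (add_le_add h1 ?_)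
    rw [abs_mul, abs_sub_comm]
    gcongr
  have : |(z.re : ℝ)| ≤ |X₁| + |X₂| := by
    refine abs_le.2 ⟨?_, ?_⟩
    · by_contra h
      exact absurd hP' (not_le.2 (hX₂ _ (by linarith [neg_abs_le X₂, abs_nonneg X₁])))
    · by_contra h
      exact absurd hP' (not_le.2 (hX₁ _ (by linarith [le_abs_self X₁, abs_nonneg X₂])))
  exact_mod_cast this.trans (Int.le_ceil _)

/-- No infinite path of Gaussian primes stays near finitely many lines and polynomial curves. -/
theorem no_path_lines (S : Finset ℤ[X]) (T : Finset (ℝ × ℝ × ℝ))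
    (hT : ∀ l ∈ T, l.1 ≠ 0 ∨ l.2.1 ≠ 0) (E : ℝ) (hE : 0 ≤ E) (L : ℕ) (z : ℕ → GaussianInt)
    (hz : Function.Injective z) (hp : ∀ n, Prime (z n))
    (hs : ∀ n, |(z (n + 1)).re - (z n).re| ≤ L) (hs' : ∀ n, |(z (n + 1)).im - (z n).im| ≤ L)
    (hc : ∀ n, (∃ f ∈ S, |((z n).im : ℝ) - ((f.eval (z n).re : ℤ) : ℝ)| ≤ E) ∨
      ∃ l ∈ T, |lineVal l (z n)| ≤ E) : False := by
  classical
  set T' : Finset (ℝ × ℝ × ℝ) := T ∪ (S.filter fun f => f.natDegree < 2).image fun f =>
    (-(f.coeff 1 : ℝ), (1 : ℝ), (f.coeff 0 : ℝ)) with hT'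
  have hne : ∀ l ∈ T', l.1 ≠ 0 ∨ l.2.1 ≠ 0 := fun l hl => by
    rcases Finset.mem_union.1 hl with h | h
    · exact hT l h
    · obtain ⟨f, -, rfl⟩ := Finset.mem_image.1 h
      exact Or.inr one_ne_zero
  set S' := S.filter fun f => 2 ≤ f.natDegree with hS'
  let nearC : GaussianInt → Prop := fun w =>
    ∃ f ∈ S', |(w.im : ℝ) - ((f.eval w.re : ℤ) : ℝ)| ≤ E
  let nearL : GaussianInt → Prop := fun w => ∃ l ∈ T', |lineVal l w| ≤ E
  have hcases : ∀ n, nearC (z n) ∨ nearL (z n) := fun n => by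
    rcases hc n with ⟨f, hf, h⟩ | ⟨l, hl, h⟩
    · rcases lt_or_ge f.natDegree 2 with hd | hd
      · refine Or.inr ⟨_, Finset.mem_union_right _
          (Finset.mem_image_of_mem _ (Finset.mem_filter.2 ⟨hf, hd⟩)), ?_⟩
        rw [Polynomial.eq_X_add_C_of_natDegree_le_one (Nat.le_of_lt_succ hd)] at h
        simp only [eval_add, eval_mul, eval_C, eval_X, Int.cast_add, Int.cast_mul] at h
        refine le_trans (le_of_eq (congrArg abs ?_)) h
        change -(f.coeff 1 : ℝ) * (z n).re + 1 * (z n).im - f.coeff 0 = _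
        ring
      · exact Or.inl ⟨f, Finset.mem_filter.2 ⟨hf, hd⟩, h⟩
    · exact Or.inr ⟨l, Finset.mem_union_left _ hl, h⟩
  let F : ℝ × ℝ × ℝ → ℝ := fun l => E + (|l.1| + |l.2.1|) * L
  have hF : ∀ l, E ≤ F l := fun l => le_add_of_nonneg_right (by positivity)
  have hmove : ∀ (l : ℝ × ℝ × ℝ) (n : ℕ),
      |lineVal l (z n) - lineVal l (z (n + 1))| ≤ (|l.1| + |l.2.1|) * L := fun l n => by
    have h1 : |((z n).re : ℝ) - (z (n + 1)).re| ≤ L := by
      rw [abs_sub_comm]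
      exact_mod_cast hs n
    have h2 : |((z n).im : ℝ) - (z (n + 1)).im| ≤ L := by
      rw [abs_sub_comm]
      exact_mod_cast hs' n
    calc |lineVal l (z n) - lineVal l (z (n + 1))|
        = |l.1 * (((z n).re : ℝ) - (z (n + 1)).re) +
          l.2.1 * (((z n).im : ℝ) - (z (n + 1)).im)| := by
          unfold lineVal
          congr 1
          ring
      _ ≤ |l.1| * L + |l.2.1| * L := by
          refine (abs_add_le _ _).trans (add_le_add ?_ ?_) <;> rw [abs_mul] <;> gcongr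
      _ = _ := by ring
  let U : Set GaussianInt := (⋃ l ∈ T', ⋃ f ∈ S',
      {w | |lineVal l w| ≤ F l ∧ |(w.im : ℝ) - ((f.eval w.re : ℤ) : ℝ)| ≤ F l}) ∪
    ⋃ l ∈ T', ⋃ l' ∈ T', {w | l.1 * l'.2.1 ≠ l.2.1 * l'.1 ∧
      |lineVal l w| ≤ F l + F l' ∧ |lineVal l' w| ≤ F l + F l'}
  have hU : U.Finite := by
    refine ((T'.finite_toSet.biUnion fun l hl => S'.finite_toSet.biUnion fun f hf => ?_).union
      (T'.finite_toSet.biUnion fun l _ => T'.finite_toSet.biUnion fun l' _ => ?_))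
    · exact finite_line_curve l (hne l hl) f (Finset.mem_filter.1 hf).2 (F l)
    · by_cases h : l.1 * l'.2.1 = l.2.1 * l'.1
      · simp [h]
      · exact (finite_two_lines l l' (F l + F l') h).subset fun w hw => hw.2
  obtain ⟨N, hN⟩ := (hU.preimage hz.injOn).bddAbove
  have hout : ∀ n, N < n → z n ∉ U := fun n hn hmem => absurd (hN hmem) (not_le.2 hn)
  have hLC : ∀ n, N < n → nearL (z n) → ¬nearC (z (n + 1)) := by
    rintro n hn ⟨l, hl, h⟩ ⟨f, hf, h'⟩
    refine hout (n + 1) (by omega) (Or.inl ?_)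
    simp only [Set.mem_iUnion]
    refine ⟨l, hl, f, hf, ?_, h'.trans (hF l)⟩
    have := (abs_add_le _ _).trans (add_le_add h ((abs_sub_comm _ _).trans_le (hmove l n)))
    simpa [F] using this
  have hLL : ∀ n, N < n → ∀ l ∈ T', |lineVal l (z n)| ≤ E → ∀ l' ∈ T',
      |lineVal l' (z (n + 1))| ≤ E → l.1 * l'.2.1 = l.2.1 * l'.1 := by
    intro n hn l hl h l' hl' h'
    by_contra hd
    refine hout n hn (Or.inr ?_)
    simp only [Set.mem_iUnion]
    refine ⟨l, hl, l', hl', hd, ?_, ?_⟩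
    · linarith [hF l, hF l', hE]
    · have := (abs_add_le _ _).trans (add_le_add h' (hmove l' n))
      rw [add_sub_cancel] at this
      linarith [hF l, hE]
  have hs0 : ∀ (N n : ℕ), |(z (N + (n + 1))).re - (z (N + n)).re| ≤ L := fun N n => hs (N + n)
  have hs1 : ∀ (N n : ℕ), |(z (N + (n + 1))).im - (z (N + n)).im| ≤ L := fun N n => hs' (N + n)
  have hinj : ∀ N : ℕ, Function.Injective fun n => z (N + n) := fun N x y h => by
    have := hz h
    omega
  by_cases hall : ∀ n, N < n → ¬nearL (z n)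
  · refine no_path S' ⌈E⌉₊ L (fun n => z (N + 1 + n)) (hinj _) (fun n => hp _) (hs0 _) fun n => ?_
    obtain ⟨f, hf, h⟩ := (hcases (N + 1 + n)).resolve_right (hall _ (by omega))
    exact ⟨f, hf, by exact_mod_cast h.trans (Nat.le_ceil E)⟩
  · push Not at hall
    obtain ⟨n₀, hn₀, l₀, hl₀, h₀⟩ := hall
    have hind : ∀ k, ∃ l ∈ T', |lineVal l (z (n₀ + k))| ≤ E ∧
        l₀.1 * l.2.1 = l₀.2.1 * l.1 := by
      intro k
      induction k with
      | zero => exact ⟨l₀, hl₀, h₀, by ring⟩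
      | succ k ih =>
        obtain ⟨l, hl, h, hpar⟩ := ih
        obtain ⟨l', hl', h'⟩ :=
          (hcases (n₀ + k + 1)).resolve_left (hLC _ (by omega) ⟨l, hl, h⟩)
        refine ⟨l', hl', h', ?_⟩
        have hd := hLL _ (by omega) l hl h l' hl' h'
        rcases hne l hl with h1 | h1
        · exact mul_right_cancel₀ h1 (by linear_combination l'.1 * hpar + l₀.1 * hd)
        · exact mul_right_cancel₀ h1 (by linear_combination l'.2.1 * hpar + l₀.2.1 * hd)
    let G : ℝ × ℝ × ℝ → ℝ := fun l =>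
      |(l.1 * l₀.1 + l.2.1 * l₀.2.1) / (l.1 ^ 2 + l.2.1 ^ 2)| * (E + |l.2.2|)
    refine no_one_line l₀.1 l₀.2.1 0 (∑ l ∈ T', G l) (hne l₀ hl₀) L (fun n => z (n₀ + n)) (hinj _)
      (fun n => hp _) (hs0 _) (hs1 _) fun k => ?_
    obtain ⟨l, hl, h, hpar⟩ := hind k
    refine le_trans ?_ (Finset.single_le_sum (f := G) (fun i _ => by positivity) hl)
    have hq : l.1 ^ 2 + l.2.1 ^ 2 ≠ 0 := by
      rcases hne l hl with h1 | h1 <;> positivity
    set w := z (n₀ + k)
    have e : lineVal (l₀.1, l₀.2.1, 0) w =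
        (l.1 * l₀.1 + l.2.1 * l₀.2.1) / (l.1 ^ 2 + l.2.1 ^ 2) * (lineVal l w + l.2.2) := by
      unfold lineVal
      field_simp
      linear_combination ((w.re : ℝ) * l.2.1 - (w.im : ℝ) * l.1) * hpar
    rw [e, abs_mul]
    exact mul_le_mul_of_nonneg_left ((abs_add_le _ _).trans (add_le_add h le_rfl)) (abs_nonneg _)

end Vale.Agent.P015
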