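import Mathlib

/-!
Windows free of Gaussian primes inside strips around polynomial curves.
-/

open Polynomial

namespace Vale.Agent.P015

/-- Every nonconstant integer polynomial has roots modulo arbitrarily large primes. -/
theorem exists_big_prime_dvd (F : ℤ[X]) (hF : F.natDegree ≠ 0) (N : ℕ) :
    ∃ (p : ℕ) (x : ℤ), p.Prime ∧ N < p ∧ (p : ℤ) ∣ F.eval x := by
  by_cases h0 : F.eval 0 = 0
  · obtain ⟨p, hp, hpp⟩ := Nat.exists_infinite_primes (N + 1)
    exact ⟨p, 0, hpp, hp, by simp [h0]⟩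
  set c := F.eval 0
  set M : ℤ := (N.factorial : ℤ)
  have hM : M ≠ 0 := Int.natCast_ne_zero.2 N.factorial_ne_zero
  have hne : ∀ e : ℤ, F - C e ≠ 0 := fun e he => hF (by
    rw [sub_eq_zero.1 he, natDegree_C])
  have hfin : {t : ℤ | F.eval (c * M * t) = c ∨ F.eval (c * M * t) = -c}.Finite := by
    have h : ∀ e : ℤ, {y : ℤ | F.eval y = e}.Finite := fun e =>
      ((finite_setOf_isRoot (hne e)).subset fun y hy => by simpa [IsRoot, sub_eq_zero] using hy)
    refine (((h c).union (h (-c))).preimage ((mul_right_injective₀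
      (mul_ne_zero h0 hM)).injOn)).subset fun t ht => ?_
    simpa using ht
  obtain ⟨t, ht⟩ := hfin.exists_notMem
  simp only [Set.mem_ofPred_eq, not_or] at ht
  obtain ⟨r, hr⟩ : c * M ∣ F.eval (c * M * t) - c := by
    have := sub_dvd_eval_sub (c * M * t) 0 F
    rw [sub_zero] at this
    exact (dvd_mul_right _ _).trans this
  have hval : F.eval (c * M * t) = c * (1 + M * r) := by linear_combination hr
  have hq : (1 + M * r).natAbs ≠ 1 := by
    intro h
    rcases Int.natAbs_eq_iff.1 h with h | h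
    · exact ht.1 (by rw [hval, h]; simp)
    · exact ht.2 (by rw [hval, h]; simp)
  obtain ⟨p, hp, hpd⟩ := Nat.exists_prime_and_dvd hq
  have hpd' : (p : ℤ) ∣ 1 + M * r := Int.natCast_dvd.2 hpd
  refine ⟨p, c * M * t, hp, ?_, by rw [hval]; exact dvd_mul_of_dvd_right hpd' _⟩
  by_contra hle
  have h1 : (p : ℤ) ∣ M * r :=
    dvd_mul_of_dvd_left (Int.natCast_dvd_natCast.2 (Nat.dvd_factorial hp.pos (not_lt.1 hle))) _
  have h2 := dvd_sub hpd' h1
  rw [add_sub_cancel_right] at h2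
  exact hp.not_dvd_one (Int.natCast_dvd_natCast.1 (by simpa using h2))

/-- A congruence class on which every polynomial of a finite family has a small prime divisor. -/
theorem exists_class {ι : Type*} (T : Finset ι) (N : ι → ℤ[X]) (hN : ∀ o ∈ T, (N o).natDegree ≠ 0) :
    ∃ (m : ℕ) (x₀ : ℤ), 0 < m ∧ ∀ o ∈ T, ∀ x : ℤ, (m : ℤ) ∣ x - x₀ →
      ∃ p : ℕ, p.Prime ∧ p ≤ m ∧ (p : ℤ) ∣ (N o).eval x := by
  classical
  induction T using Finset.induction_on with
  | empty => exact ⟨1, 0, one_pos, fun o ho => absurd ho (Finset.notMem_empty o)⟩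
  | insert a T ha ih =>
    obtain ⟨m, x₀, hm, h⟩ := ih fun o ho => hN o (Finset.mem_insert_of_mem ho)
    obtain ⟨p, r, hp, hmp, hpr⟩ := exists_big_prime_dvd (N a) (hN a (Finset.mem_insert_self a T)) m
    have hco : IsCoprime (m : ℤ) p := Int.isCoprime_iff_nat_coprime.2 (by
      simpa using ((hp.coprime_iff_not_dvd).2 (Nat.not_dvd_of_pos_of_lt hm hmp)).symm)
    obtain ⟨u, v, huv⟩ := hco
    refine ⟨m * p, x₀ * (v * p) + r * (u * m), Nat.mul_pos hm hp.pos, fun o ho x hx => ?_⟩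
    obtain ⟨s, hs⟩ := hx
    push_cast at hs
    rcases Finset.mem_insert.1 ho with rfl | ho
    · refine ⟨p, hp, Nat.le_mul_of_pos_left p hm, ?_⟩
      have hd : (p : ℤ) ∣ x - r := ⟨x₀ * v - r * v + m * s, by linear_combination hs + r * huv⟩
      have := dvd_add (hd.trans (sub_dvd_eval_sub x r (N o))) hpr
      simpa using this
    · obtain ⟨q, hq, hqm, hqd⟩ :=
        h o ho x ⟨r * u - x₀ * u + p * s, by linear_combination hs + x₀ * huv⟩
      exact ⟨q, hq, hqm.trans (Nat.le_mul_of_pos_right m hp.pos), hqd⟩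

/-- The norm of a Gaussian prime is at most the square of any rational prime dividing it. -/
theorem norm_le_sq {z : GaussianInt} (hz : Prime z) {p : ℕ} (hp : p.Prime)
    (hd : (p : ℤ) ∣ z.norm) : z.norm ≤ (p : ℤ) ^ 2 := by
  have hpu : ¬IsUnit ((p : ℤ) : GaussianInt) := fun h => by
    have h1 := Zsqrtd.isUnit_iff_norm_isUnit _ |>.1 h
    rw [Zsqrtd.norm_intCast, Int.isUnit_iff_natAbs_eq, Int.natAbs_mul, Int.natAbs_natCast] at h1
    nlinarith [hp.two_le]
  obtain ⟨π, hπ, hπp⟩ := WfDvdMonoid.exists_irreducible_factor hpu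
    (by exact_mod_cast (Nat.cast_ne_zero (R := GaussianInt)).2 hp.ne_zero)
  have key : ∀ a : GaussianInt, a ∣ z → ¬IsUnit a → a ∣ ((p : ℤ) : GaussianInt) →
      z.norm ≤ (p : ℤ) ^ 2 := by
    intro a ha hau hap
    have hza : z ∣ ((p : ℤ) : GaussianInt) :=
      ((hz.irreducible.dvd_iff.1 ha).resolve_left hau).dvd.trans hap
    have h2 := map_dvd (Zsqrtd.normMonoidHom (d := -1)) hza
    change z.norm ∣ Zsqrtd.norm ((p : ℤ) : GaussianInt) at h2
    rw [Zsqrtd.norm_intCast] at h2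
    exact (Int.le_of_dvd (mul_pos (by exact_mod_cast hp.pos) (by exact_mod_cast hp.pos)) h2).trans
      (le_of_eq (sq _).symm)
  have hzz : π ∣ z * star z := by
    refine hπp.trans ?_
    rw [← Zsqrtd.norm_eq_mul_conj]
    exact map_dvd (Int.castRingHom GaussianInt) hd
  rcases (UniqueFactorizationMonoid.irreducible_iff_prime.1 hπ).dvd_or_dvd hzz with h | h
  · exact key π h hπ.not_isUnit hπp
  · refine key (star π) ?_ (fun hu => hπ.not_isUnit (by simpa using hu.star)) ?_
    · simpa [starRingEnd_apply] using map_dvd (starRingEnd GaussianInt) h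
    · simpa [starRingEnd_apply] using map_dvd (starRingEnd GaussianInt) hπp

/-- Arbitrarily far to either side there is a window free of Gaussian primes near the curves. -/
theorem exists_window (S : Finset ℤ[X]) (K L : ℕ) : ∃ (m : ℕ) (x₀ : ℤ), 0 < m ∧
    ∀ x : ℤ, (m : ℤ) ∣ x - x₀ → ∀ z : GaussianInt, |z.re - x| ≤ L → (m : ℤ) < |z.re| →
      (∃ f ∈ S, |z.im - f.eval z.re| ≤ K) → ¬Prime z := by
  let N : ℤ[X] × ℤ × ℤ → ℤ[X] := fun o =>
    (X + C o.2.1) ^ 2 + (o.1.comp (X + C o.2.1) + C o.2.2) ^ 2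
  have hN : ∀ o, (N o).natDegree ≠ 0 := by
    intro o h
    obtain ⟨c, hc⟩ := natDegree_eq_zero.1 h
    have h1 := congrArg (eval (|c| + 1 - o.2.1)) hc
    simp [N] at h1
    nlinarith [le_abs_self c, sq_nonneg (eval (|c| + 1) o.1 + o.2.2), abs_nonneg c]
  obtain ⟨m, x₀, hm, h⟩ := exists_class
    (S ×ˢ (Finset.Icc (-(L : ℤ)) L ×ˢ Finset.Icc (-(K : ℤ)) K)) N fun o _ => hN o
  refine ⟨m, x₀, hm, fun x hx z hzx hzm ⟨f, hf, hfz⟩ hz => ?_⟩
  obtain ⟨p, hp, hpm, hpd⟩ := h (f, z.re - x, z.im - f.eval z.re) (by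
    simp only [Finset.mem_product, Finset.mem_Icc]
    exact ⟨hf, abs_le.1 hzx, abs_le.1 hfz⟩) x hx
  have he : (N (f, z.re - x, z.im - f.eval z.re)).eval x = z.norm := by
    simp [N, Zsqrtd.norm_def]
    ring
  rw [he] at hpd
  have h1 := norm_le_sq hz hp hpd
  rw [Zsqrtd.norm_def] at h1
  have h2 : (p : ℤ) ≤ m := by exact_mod_cast hpm
  nlinarith [sq_abs z.re, mul_self_nonneg z.im, Int.natCast_nonneg p, abs_nonneg z.re]

/-- An integer sequence with bounded steps that is unbounded above visits every late window. -/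
theorem visit_above {a : ℕ → ℤ} {L : ℕ} (hs : ∀ n, |a (n + 1) - a n| ≤ L) {x : ℤ}
    (h0 : a 0 < x) (hx : ∃ n, x ≤ a n) : ∃ n, |a n - x| ≤ L ∧ x ≤ a n := by
  classical
  obtain ⟨k, hk⟩ : ∃ k, Nat.find hx = k + 1 := Nat.exists_eq_succ_of_ne_zero fun h => by
    have := Nat.find_spec hx
    rw [h] at this
    omega
  have h1 := Nat.find_spec hx
  have h2 := Nat.find_min hx (show k < Nat.find hx by omega)
  rw [hk] at h1
  have := hs k
  rw [abs_le] at this
  exact ⟨k + 1, abs_le.2 ⟨by omega, by omega⟩, h1⟩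

theorem no_path (S : Finset ℤ[X]) (K L : ℕ) (z : ℕ → GaussianInt) (hz : Function.Injective z)
    (hp : ∀ n, Prime (z n)) (hs : ∀ n, |(z (n + 1)).re - (z n).re| ≤ L)
    (hc : ∀ n, ∃ f ∈ S, |(z n).im - f.eval (z n).re| ≤ K) : False := by
  obtain ⟨m, x₀, hm, hwin⟩ := exists_window S K L
  have hm' : (1 : ℤ) ≤ m := by exact_mod_cast hm
  have hne : ∀ B : ℤ, ∃ n, B < |(z n).re| := by
    intro B
    by_contra hB
    push Not at hB
    have hfin : (Set.range z).Finite := by
      refine ((Finset.finite_toSet ((Finset.Icc (-B) B).biUnion fun a => S.biUnion fun f =>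
        (Finset.Icc (f.eval a - K) (f.eval a + K)).image fun b => (⟨a, b⟩ : GaussianInt)))).subset ?_
      rintro - ⟨n, rfl⟩
      obtain ⟨f, hf, hfn⟩ := hc n
      simp only [Finset.coe_biUnion, Set.mem_iUnion, Finset.mem_coe, Finset.coe_image, Set.mem_image,
        Finset.mem_Icc]
      refine ⟨(z n).re, abs_le.1 (hB n), f, hf, (z n).im, ?_, rfl⟩
      have := abs_le.1 hfn
      omega
    exact Set.infinite_range_of_injective hz hfin
  set R : ℤ := |(z 0).re| + m + L + |x₀| + 1 with hR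
  have hR0 : 0 ≤ R := by positivity
  set k : ℤ := 2 * R with hk
  have hkm : 2 * R ≤ k * m := le_mul_of_one_le_right (by omega) hm'
  obtain ⟨n, hn⟩ := hne (k * m + R)
  have := le_abs_self x₀
  have := neg_abs_le x₀
  have := le_abs_self (z 0).re
  have := neg_abs_le (z 0).re
  rcases abs_cases (z n).re with ⟨he, -⟩ | ⟨he, -⟩ <;> rw [he] at hn
  · obtain ⟨i, hi, hi'⟩ := visit_above (a := fun i => (z i).re) hs
      (x := x₀ + k * m) (by omega) ⟨n, by omega⟩
    exact hwin _ ⟨k, by ring⟩ (z i) hi (by rw [abs_of_nonneg (by omega)]; omega) (hc i) (hp i)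
  · obtain ⟨i, hi, hi'⟩ := visit_above (a := fun i => -(z i).re) (L := L)
      (fun i => by rw [abs_le]; have := abs_le.1 (hs i); omega)
      (x := -(x₀ - k * m)) (by omega) ⟨n, by omega⟩
    refine hwin (x₀ - k * m) ⟨-k, by ring⟩ (z i) ?_ ?_ (hc i) (hp i)
    · rw [abs_le] at hi ⊢; omega
    · rw [abs_of_nonpos (by omega)]; omega

end Vale.Agent.P015
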